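import Vale.Agent.P251EJ.DefsM
import Vale.Agent.P251Z.JWMain

/-!
# P251EJ, row OUT: from the Johnson-Wilson monoid of the library to the statement layer
-/

open CategoryTheory MonoidalCategory Limits Pretriangulated MonObj

set_option linter.unusedSectionVars false

noncomputable section

namespace Vale.Agent.P251EJ32

open Vale.Agent.P251 Vale.Agent.P251.I Vale.Agent.P251.T Vale.Agent.P251.M Vale.Agent.P251.St
  Vale.Agent.P251.F Vale.Agent.P257.H702 Vale.Agent.P257.St Vale.Agent.P251EJ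
open Vale.Agent.P251.M.EvenSpheres

variable {T : SHCat} {S : Susp T} {R : RingSp T}

/-- the component of degree `l = d + m` of the product with a homogeneous element -/
theorem comp_mul {d m l : ℤ} (h : d + m = l) (y : HRing (stdEven T.C) R.obj)
    (b : (stdEven T.C).S m ⟶ R.obj) :
    (y * HRing.of (stdEven T.C) R.obj m b) l = gmul h (y d) b := by
  induction y using DirectSum.induction_on with
  | zero =>
    have h1 := of_mul_of (E := stdEven T.C) h (0 : (stdEven T.C).S d ⟶ R.obj) b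
    have h2 : HRing.of (stdEven T.C) R.obj d 0 = 0 :=
      map_zero (DirectSum.of ((stdEven T.C).Gr R.obj) d)
    rw [h2] at h1
    rw [h1]
    exact DirectSum.of_eq_same (β := (stdEven T.C).Gr R.obj) l _
  | of i a =>
    have h1 := of_mul_of (E := stdEven T.C) (rfl : i + m = i + m) a b
    by_cases hi : i = d
    · subst hi
      subst h
      rw [DirectSum.of_eq_same (β := (stdEven T.C).Gr R.obj) i a]
      exact (congrArg (fun z : HRing (stdEven T.C) R.obj => z (i + m)) h1).trans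
        (DirectSum.of_eq_same (β := (stdEven T.C).Gr R.obj) (i + m) _)
    · rw [DirectSum.of_eq_of_ne (β := (stdEven T.C).Gr R.obj) i d a (fun h => hi h.symm)]
      refine (congrArg (fun z : HRing (stdEven T.C) R.obj => z l) h1).trans ?_
      have h3 : l ≠ i + m := fun h' => hi (by omega)
      refine (DirectSum.of_eq_of_ne (β := (stdEven T.C).Gr R.obj) (i + m) l _ h3).trans ?_
      apply P257.H80.of_injective (T := T.C)
      rw [← of_mul_of h]
      have h2 : ∀ k, HRing.of (stdEven T.C) R.obj k 0 = 0 := fun k =>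
        map_zero (DirectSum.of ((stdEven T.C).Gr R.obj) k)
      rw [h2, h2, zero_mul]
  | add x y hx hy =>
    rw [add_mul, DirectSum.add_apply, DirectSum.add_apply, hx, hy]
    apply P257.H80.of_injective (T := T.C)
    have h2 : ∀ (k : ℤ) (a c : (stdEven T.C).S k ⟶ R.obj), HRing.of (stdEven T.C) R.obj k (a + c) =
        HRing.of (stdEven T.C) R.obj k a + HRing.of (stdEven T.C) R.obj k c := fun k a c =>
      map_add (DirectSum.of ((stdEven T.C).Gr R.obj) k) a c
    rw [h2, ← of_mul_of h, ← of_mul_of h, ← of_mul_of h, ← add_mul, ← h2]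

/-- a homogeneous unit has a homogeneous inverse -/
theorem exists_ginv {m : ℤ} {b : (stdEven T.C).S m ⟶ R.obj}
    (hb : IsUnit (HRing.of (stdEven T.C) R.obj m b)) :
    ∃ a : (stdEven T.C).S (-m) ⟶ R.obj,
      gmul (neg_add_cancel m) a b = (stdEven T.C).zero.inv ≫ η[R.obj] := by
  obtain ⟨y, hy⟩ := hb.exists_left_inv
  refine ⟨y (-m), ?_⟩
  rw [← comp_mul (neg_add_cancel m) y b, hy, ← of_one]
  exact DirectSum.of_eq_same (β := (stdEven T.C).Gr R.obj) 0 _

theorem cls_inj (n : ℕ) : Function.Injective (cls S R n) := by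
  intro a b hab
  rw [cls_apply, cls_apply] at hab
  have h2 := P257.H80.of_injective hab
  rwa [cancel_epi] at h2

theorem vEl_image (p n : ℕ) :
    vEl p '' {i | n + 1 < i} = MvPolynomial.X '' {j | n < j} := by
  ext x
  constructor
  · rintro ⟨i, hi, rfl⟩
    rcases i with _ | i
    · exact absurd hi (Nat.not_lt_zero _)
    · exact ⟨i, Nat.lt_of_succ_lt_succ hi, rfl⟩
  · rintro ⟨j, hj, rfl⟩
    exact ⟨j + 1, Nat.succ_lt_succ hj, rfl⟩

/-- **row OUT** -/
theorem outJW : OutJW := by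
  intro T S p hp n D U E u hu Φ J
  classical
  obtain ⟨o, ho⟩ := U.exists_orient (R := E) u
  have hX := P257.H80.hom_homog J.loc J.law
  obtain ⟨φ, hφ, hΦ⟩ := exists_isPTyp (S := S) (R := E) (o := o) J.loc hX
    (by rw [U.lawS_eq ho]; exact J.law)
  have hcls : ∀ k (x : VPoly p k), Φ x = cls S E k (φ k x) := hΦ
  refine ⟨o, φ, hφ, fun k f hk => J.odd k hk f, ?_, ?_, ?_⟩
  · have h1 : Φ (MvPolynomial.X n) = HRing.of (stdEven T.C) E.obj ((p ^ (n + 1) - 1 : ℕ) : ℤ)
        ((isoE S (p ^ (n + 1) - 1)).inv ≫ hazV φ (n + 1)) :=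
      hΦ (p ^ (n + 1) - 1) ⟨vEl p (n + 1), vEl_mem p (n + 1)⟩
    obtain ⟨a, ha⟩ := exists_ginv (h1 ▸ J.unit)
    obtain ⟨w, hw⟩ := X.exists_inv (M.lineIso S.toSpaceFunctor) (F := S.toSpaceFunctor) _ a ha
    have h2 : Z.sph (M.lineIso S.toSpaceFunctor) (p ^ (n + 1) - 1) ≫
        (isoE S (p ^ (n + 1) - 1)).inv ≫ hazV φ (n + 1) = hazV φ (n + 1) :=
      (isoE S (p ^ (n + 1) - 1)).hom_inv_id_assoc _
    rw [h2] at hw
    exact ⟨w, hw⟩
  · intro k y
    obtain ⟨m, j, x, hm, hx⟩ := J.gen (cls S E k y)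
    have hu : (vEl p (n + 1) ^ j) ∈ VP p (j • (p ^ (n + 1) - 1)) :=
      SetLike.pow_mem_graded j (vEl_mem p (n + 1))
    have h4 : cls S E k (St.zmul m y) = (m : HRing (stdEven T.C) E.obj) * cls S E k y := by
      rw [St.zmul, map_zsmul, zsmul_eq_mul]
    have h5 : cls S E _ (φ _ ⟨_, hu⟩) = Φ (MvPolynomial.X n) ^ j := by
      rw [← map_pow]
      exact (hcls _ ⟨_, hu⟩).symm
    refine ⟨m, j, j • (p ^ (n + 1) - 1), ⟨_, hu⟩,
      DirectSum.decompose (VP p) x (j • (p ^ (n + 1) - 1) + k), hm, rfl, isProd_of_cls ?_⟩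
    have hk : ((j • (p ^ (n + 1) - 1) : ℕ) : ℤ) + (k : ℤ) = ((j • (p ^ (n + 1) - 1) + k : ℕ) : ℤ) := by
      push_cast
      rfl
    have h6 : Φ x = cls S E _ (φ _ ⟨_, hu⟩) * cls S E k (St.zmul m y) := by
      rw [h4, h5, hx]
    have h7 := P251Z.component hΦ x (j • (p ^ (n + 1) - 1) + k)
    rw [cls_apply, cls_apply, of_mul_of hk] at h6
    rw [cls_apply, cls_apply, cls_apply, of_mul_of hk, ← h7, h6]
    exact congrArg _ (DirectSum.of_eq_same (β := (stdEven T.C).Gr E.obj) _ _)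
  · intro k x
    rw [vEl_image, ← J.ker, hcls]
    exact (map_eq_zero_iff _ (cls_inj k)).symm

end Vale.Agent.P251EJ32
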